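import Vale.Agent.P065.UB.WLov

/-!
# P065, upper bound: transfer of visibility along the `k`-edges of a window (helper224)

For every point `a` and every interval `J` of slopes all but `3 (#Tch + #EdBd)` of the `k`-edges
inside `Q` with slope in `I` have both ends or no end seen from `a` with slope in `J`.
-/

set_option autoImplicit false

namespace Vale.Agent.P065.H224

open Finset Vale.Agent.P065.UB Vale.Agent.P065.UB.RankAux

/-- a threshold for a finite set of reals and an up-set -/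
theorem exists_thr (S : Finset ℝ) (U : Set ℝ) (hU : ∀ x ∈ U, ∀ y, x ≤ y → y ∈ U) :
    ∃ t : ℝ, (∀ s ∈ S, s ≠ t) ∧ ∀ s ∈ S, (s ∈ U ↔ t < s) := by
  classical
  by_cases hA : ({s ∈ S | s ∈ U} : Finset ℝ).Nonempty
  · obtain ⟨m, hm, hmin⟩ := exists_min_image _ id hA
    simp only [id] at hmin
    have hm' := mem_filter.1 hm
    by_cases hB : ({s ∈ S | s ∉ U} : Finset ℝ).Nonempty
    · obtain ⟨M, hM, hmax⟩ := exists_max_image _ id hB
      simp only [id] at hmax
      have hM' := mem_filter.1 hM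
      have hlt : M < m := by
        by_contra hcon
        exact hM'.2 (hU m hm'.2 M (not_lt.1 hcon))
      have key : ∀ s ∈ S, (s ∈ U ∧ m ≤ s) ∨ (s ∉ U ∧ s ≤ M) := by
        intro s hs
        by_cases h : s ∈ U
        · exact Or.inl ⟨h, hmin s (mem_filter.2 ⟨hs, h⟩)⟩
        · exact Or.inr ⟨h, hmax s (mem_filter.2 ⟨hs, h⟩)⟩
      refine ⟨(M + m) / 2, fun s hs => ?_, fun s hs => ?_⟩
      · rcases key s hs with h | h
        · intro he; linarith [h.2]
        · intro he; linarith [h.2]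
      · rcases key s hs with h | h
        · exact ⟨fun _ => by linarith [h.2], fun _ => h.1⟩
        · exact ⟨fun h' => absurd h' h.1, fun h' => absurd h.2 (by linarith)⟩
    · have hall : ∀ s ∈ S, s ∈ U := by
        intro s hs
        by_contra h
        exact hB ⟨s, mem_filter.2 ⟨hs, h⟩⟩
      refine ⟨m - 1, fun s hs => ?_, fun s hs => ?_⟩
      · have := hmin s (mem_filter.2 ⟨hs, hall s hs⟩)
        intro he; linarith
      · have := hmin s (mem_filter.2 ⟨hs, hall s hs⟩)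
        exact ⟨fun _ => by linarith, fun _ => hall s hs⟩
  · have hall : ∀ s ∈ S, s ∉ U := by
      intro s hs h
      exact hA ⟨s, mem_filter.2 ⟨hs, h⟩⟩
    obtain ⟨B, hB⟩ := S.bddAbove
    refine ⟨B + 1, fun s hs => ?_, fun s hs => ?_⟩
    · have := hB hs
      intro he; linarith
    · have := hB hs
      exact ⟨fun h => absurd h (hall s hs), fun h => by linarith⟩

/-- `z` is seen from `a` in the interval iff `z` lies on different sides of the two lines -/
theorem ht_sub_eq {a z : Pt} (h : z.1 ≠ a.1) (t : ℝ) :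
    ht t z - ht t a = (sl a z - t) * (z.1 - a.1) := by
  have h0 : z.1 - a.1 ≠ 0 := sub_ne_zero.2 h
  have h1 : sl a z * (z.1 - a.1) = z.2 - a.2 := by
    unfold sl; exact div_mul_cancel₀ _ h0
  unfold ht
  linear_combination (-1) * h1

/-- the double wedge of an interval of slopes at `a`, seen on a finite set, by two half-planes -/
theorem exists_wedge (Q : Finset Pt) (a : Pt) {J : Set ℝ} (hJ : J.OrdConnected)
    (hne : J.Nonempty) :
    ∃ t₁ t₂ : ℝ, ∀ z ∈ Q, z.1 ≠ a.1 →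
      (sl a z ∈ J ↔ ¬ (ht t₁ z < ht t₁ a ↔ ht t₂ z < ht t₂ a)) := by
  classical
  obtain ⟨U, hU⟩ : ∃ U : Set ℝ, ∀ m, m ∈ U ↔ ∃ i ∈ J, i ≤ m := ⟨{m | ∃ i ∈ J, i ≤ m}, fun _ => Iff.rfl⟩
  obtain ⟨D, hD⟩ : ∃ D : Set ℝ, ∀ m, m ∈ D ↔ ¬ ∃ i ∈ J, m ≤ i :=
    ⟨{m | ¬ ∃ i ∈ J, m ≤ i}, fun _ => Iff.rfl⟩
  obtain ⟨t₁, h1, h1'⟩ := exists_thr (Q.image fun z => sl a z) U (by
    intro x hx y hxy
    rw [hU] at hx ⊢
    obtain ⟨i, hi, hix⟩ := hx
    exact ⟨i, hi, hix.trans hxy⟩)
  obtain ⟨t₂, h2, h2'⟩ := exists_thr (Q.image fun z => sl a z) D (by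
    intro x hx y hxy
    rw [hD] at hx ⊢
    rintro ⟨i, hi, hix⟩
    exact hx ⟨i, hi, hxy.trans hix⟩)
  refine ⟨t₁, t₂, fun z hz hza => ?_⟩
  have hmem : sl a z ∈ Q.image fun z => sl a z := mem_image_of_mem _ hz
  have e1 := h1' _ hmem
  have e2 := h2' _ hmem
  have n1 := h1 _ hmem
  have n2 := h2 _ hmem
  have eJ : sl a z ∈ J ↔ sl a z ∈ U ∧ sl a z ∉ D := by
    rw [hU, hD, not_not]
    constructor
    · intro h; exact ⟨⟨_, h, le_rfl⟩, ⟨_, h, le_rfl⟩⟩
    · rintro ⟨⟨i, hi, hi'⟩, ⟨j, hj, hj'⟩⟩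
      exact hJ.out hi hj ⟨hi', hj'⟩
  have hUD : sl a z ∉ U → sl a z ∉ D := by
    rw [hU, hD, not_not]
    intro h
    obtain ⟨i, hi⟩ := hne
    refine ⟨i, hi, ?_⟩
    by_contra hcon
    exact h ⟨i, hi, (not_le.1 hcon).le⟩
  have k1 := ht_sub_eq hza t₁
  have k2 := ht_sub_eq hza t₂
  rw [eJ]
  rw [e1, e2] at *
  rcases lt_or_gt_of_ne hza with hx | hx
  · -- left of `a`
    have hx' : z.1 - a.1 < 0 := by linarith
    have s1 : ht t₁ z < ht t₁ a ↔ t₁ < sl a z := by
      constructor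
      · intro h
        by_contra hcon
        have : 0 ≤ (sl a z - t₁) * (z.1 - a.1) :=
          mul_nonneg_of_nonpos_of_nonpos (by linarith [not_lt.1 hcon]) hx'.le
        linarith
      · intro h
        have : (sl a z - t₁) * (z.1 - a.1) < 0 := mul_neg_of_pos_of_neg (by linarith) hx'
        linarith
    have s2 : ht t₂ z < ht t₂ a ↔ t₂ < sl a z := by
      constructor
      · intro h
        by_contra hcon
        have : 0 ≤ (sl a z - t₂) * (z.1 - a.1) :=
          mul_nonneg_of_nonpos_of_nonpos (by linarith [not_lt.1 hcon]) hx'.le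
        linarith
      · intro h
        have : (sl a z - t₂) * (z.1 - a.1) < 0 := mul_neg_of_pos_of_neg (by linarith) hx'
        linarith
    rw [s1, s2]
    tauto
  · -- right of `a`
    have hx' : 0 < z.1 - a.1 := by linarith
    have s1 : ht t₁ z < ht t₁ a ↔ ¬ t₁ < sl a z := by
      constructor
      · intro h hcon
        have : 0 < (sl a z - t₁) * (z.1 - a.1) := mul_pos (by linarith) hx'
        linarith
      · intro h
        have h3 : sl a z < t₁ := lt_of_le_of_ne (not_lt.1 h) n1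
        have : (sl a z - t₁) * (z.1 - a.1) < 0 := mul_neg_of_neg_of_pos (by linarith) hx'
        linarith
    have s2 : ht t₂ z < ht t₂ a ↔ ¬ t₂ < sl a z := by
      constructor
      · intro h hcon
        have : 0 < (sl a z - t₂) * (z.1 - a.1) := mul_pos (by linarith) hx'
        linarith
      · intro h
        have h3 : sl a z < t₂ := lt_of_le_of_ne (not_lt.1 h) n2
        have : (sl a z - t₂) * (z.1 - a.1) < 0 := mul_neg_of_neg_of_pos (by linarith) hx'
        linarith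
    rw [s1, s2]
    tauto

theorem isHalf_ht (t c : ℝ) : IsHalf {z : Pt | ht t z < c} :=
  ⟨-t, 1, fun z z' h h' => by
    have h2 : ht t z' < c := h'
    have h3 : ht t z < c := by
      unfold ht at h2 ⊢
      linarith
    exact h3⟩

open Classical in
/-- **TRANSFER**: all but `2 (#Tch + #EdBd)` of the `k`-edges inside `Q` with slope in `I` have
both ends or no end seen from `a` with slope in `J`. -/
theorem transfer {P : Finset Pt} (hP : Good P) {k : ℕ} {Q : Finset Pt} {I J : Set ℝ}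
    (hI : I.OrdConnected) (hJ : J.OrdConnected) (a : Pt) :
    #{e ∈ EdIn P k Q I | e.1.1 ≠ a.1 ∧ e.2.1 ≠ a.1 ∧ ¬ (sl a e.1 ∈ J ↔ sl a e.2 ∈ J)} ≤
      2 * (#(Tch P k Q I) + #(EdBd P k Q I)) := by
  rcases J.eq_empty_or_nonempty with hne | hne
  · rw [filter_false_of_mem]
    · simp
    · rintro e - ⟨-, -, h⟩
      rw [hne] at h
      exact h ⟨fun h => h, fun h => h⟩
  · obtain ⟨t₁, t₂, hw⟩ := exists_wedge Q a hJ hne
    have b1 := halfplane hP (k := k) (Q := Q) hI (isHalf_ht t₁ (ht t₁ a))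
    have b2 := halfplane hP (k := k) (Q := Q) hI (isHalf_ht t₂ (ht t₂ a))
    refine (card_le_card (t := _ ∪ _) ?_).trans ((card_union_le _ _).trans
      ((add_le_add b1 b2).trans (by omega)))
    intro e he
    obtain ⟨he, h1, h2, h3⟩ := mem_filter.1 he
    have hQ := mem_EdIn.1 he
    rw [hw _ hQ.2.1 h1, hw _ hQ.2.2.1 h2] at h3
    rw [mem_union, mem_filter, mem_filter]
    simp only [Set.mem_ofPred_eq]
    tauto

/-- the number of edges at a point -/
theorem card_at_le {P : Finset Pt} {k : ℕ} {Q : Finset Pt} {I : Set ℝ} (v : Pt) :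
    #{e ∈ EdIn P k Q I | e.1 = v ∨ e.2 = v} ≤ #(Tch P k Q I) := by
  classical
  refine card_le_card_of_injOn (fun e => if e.1 = v then e.2 else e.1) ?_ ?_
  · intro e he
    obtain ⟨he, h⟩ := mem_filter.1 (mem_coe.1 he)
    have hQ := mem_EdIn.1 he
    rw [mem_coe, Tch, mem_filter]
    by_cases h1 : e.1 = v
    · simp only [h1, if_true]
      exact ⟨hQ.2.2.1, e, he, Or.inr rfl⟩
    · simp only [h1, if_false]
      exact ⟨hQ.2.1, e, he, Or.inl rfl⟩
  · intro e he e' he' heq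
    obtain ⟨he, h⟩ := mem_filter.1 (mem_coe.1 he)
    obtain ⟨he', h'⟩ := mem_filter.1 (mem_coe.1 he')
    have l1 := (mem_Ed.1 (mem_EdIn.1 he).1).2.2.1
    have l2 := (mem_Ed.1 (mem_EdIn.1 he').1).2.2.1
    simp only at heq
    by_cases h1 : e.1 = v <;> by_cases h2 : e'.1 = v
    · rw [if_pos h1, if_pos h2] at heq
      exact Prod.ext (h1.trans h2.symm) heq
    · rw [if_pos h1, if_neg h2] at heq
      have h3 : e'.2 = v := h'.resolve_left h2
      rw [h1, heq] at l1
      rw [h3] at l2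
      exact absurd l1 (not_lt.2 l2.le)
    · rw [if_neg h1, if_pos h2] at heq
      have h3 : e.2 = v := h.resolve_left h1
      rw [h3, heq] at l1
      rw [h2] at l2
      exact absurd l1 (not_lt.2 l2.le)
    · rw [if_neg h1, if_neg h2] at heq
      exact Prod.ext heq ((h.resolve_left h1).trans (h'.resolve_left h2).symm)

open Classical in
/-- **TRANSFER**, without exception -/
theorem transfer' {P : Finset Pt} (hP : Good P) {k : ℕ} {Q : Finset Pt} {I J : Set ℝ}
    (hI : I.OrdConnected) (hJ : J.OrdConnected) (a : Pt) :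
    #{e ∈ EdIn P k Q I | ¬ (sl a e.1 ∈ J ↔ sl a e.2 ∈ J)} ≤
      3 * (#(Tch P k Q I) + #(EdBd P k Q I)) := by
  have h1 := transfer hP (k := k) (Q := Q) hI hJ a
  by_cases hv : ∃ v ∈ P, v.1 = a.1
  · obtain ⟨v, hvP, hva⟩ := hv
    have h2 := card_at_le (P := P) (k := k) (Q := Q) (I := I) v
    refine (card_le_card (t := {e ∈ EdIn P k Q I | e.1.1 ≠ a.1 ∧ e.2.1 ≠ a.1 ∧
      ¬ (sl a e.1 ∈ J ↔ sl a e.2 ∈ J)} ∪ {e ∈ EdIn P k Q I | e.1 = v ∨ e.2 = v}) ?_).trans
      ((card_union_le _ _).trans (by omega))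
    intro e he
    obtain ⟨he, h3⟩ := mem_filter.1 he
    have hE := mem_Ed.1 (mem_EdIn.1 he).1
    rw [mem_union, mem_filter, mem_filter]
    by_cases c1 : e.1.1 = a.1
    · right
      exact ⟨he, Or.inl (hP.xinj _ hE.1 _ hvP (c1.trans hva.symm))⟩
    · by_cases c2 : e.2.1 = a.1
      · right
        exact ⟨he, Or.inr (hP.xinj _ hE.2.1 _ hvP (c2.trans hva.symm))⟩
      · left
        exact ⟨he, c1, c2, h3⟩
  · refine (card_le_card (t := {e ∈ EdIn P k Q I | e.1.1 ≠ a.1 ∧ e.2.1 ≠ a.1 ∧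
      ¬ (sl a e.1 ∈ J ↔ sl a e.2 ∈ J)}) ?_).trans (by omega)
    intro e he
    obtain ⟨he, h3⟩ := mem_filter.1 he
    have hE := mem_Ed.1 (mem_EdIn.1 he).1
    exact mem_filter.2 ⟨he, fun c => hv ⟨_, hE.1, c⟩, fun c => hv ⟨_, hE.2.1, c⟩, h3⟩

open Classical in
/-- edges with an end seen from `a` versus edges with both ends seen from `a` -/
theorem card_one_le_both {P : Finset Pt} (hP : Good P) {k : ℕ} {Q : Finset Pt} {I J : Set ℝ}
    (hI : I.OrdConnected) (hJ : J.OrdConnected) (a : Pt) :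
    #{e ∈ EdIn P k Q I | sl a e.1 ∈ J ∨ sl a e.2 ∈ J} ≤
      #{e ∈ EdIn P k Q I | sl a e.1 ∈ J ∧ sl a e.2 ∈ J} +
        3 * (#(Tch P k Q I) + #(EdBd P k Q I)) := by
  refine (card_le_card (t := {e ∈ EdIn P k Q I | sl a e.1 ∈ J ∧ sl a e.2 ∈ J} ∪
    {e ∈ EdIn P k Q I | ¬ (sl a e.1 ∈ J ↔ sl a e.2 ∈ J)}) ?_).trans ((card_union_le _ _).trans
    (Nat.add_le_add_left (transfer' hP hI hJ a) _))
  intro e he
  obtain ⟨he, h3⟩ := mem_filter.1 he
  rw [mem_union, mem_filter, mem_filter]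
  tauto

end Vale.Agent.P065.H224
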